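import Vale.Agent.P092.H958.O.Rows
import Vale.Agent.P092.H958.CLoF
import Vale.Agent.P092.H21.C.ExT

/-!
P092, [OV] (helper958): the fields of the base record of the letters `CL.Lt` and the first leg for an
irreducible system `Sys V R₁ R₂`, any admissible source group.
-/

set_option linter.all false

open scoped InnerProductSpace ENNReal
open Filter Topology ContinuousLinearMap MeasureTheory TopologicalSpace

namespace Vale.Agent.P092.H958.OV

open Vale.Agent.P092.RC (PicF)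
open Vale.Agent.P092.SR (Tri)
open Vale.Agent.P092.H678.OV
open Vale.Agent.P092.H85 (cdat)
open Vale.Agent.P092.H34.Ind (Xset)
open Vale.Agent.P092.H34.AmpE (nrm)
open Vale.Agent.P092.H368.SN (Spr)
open Vale.Agent.P092.H933 (LeviGap Flt)
open Vale.Agent.P092.CL
open Vale.Agent.P092.CL.T (PBF LegPF HasLegF)
open Vale.Agent.P092.SD (MsF UC)
open Vale.Agent.P092.H21 (Hon mT WT)
open Vale.Agent.P092.H21.C (MassT MassStmt exists_v0 sprE wal_T)
open Vale.Agent.P092.H859.CL (st)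
open Vale.Agent.P092.H725.SN (SZ3)
open Vale.Agent.P092.H421.GrT (MskL sz3_tri sz3_exp_exp)
open Vale.Agent.P092.H71.CLO (SprL prp_adm)
open Vale.Agent.P092.H958.CLo (CLoF exists_flt)

section leg

variable {S P M V₁ V₂ : Type} [Group S] [MeasurableSpace V₁] [MeasurableSpace V₂]
  {L : Lt S P M V₁ V₂} [TopologicalSpace S] [MulAction S P] [TopologicalSpace P] [CompactSpace P]
  [ContinuousConstSMul S P] [MulAction S M] [TopologicalSpace M] [CompactSpace M]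
  [ContinuousConstSMul S M] [NormedAddCommGroup V₁] [NormedAddCommGroup V₂]
  [ProperSpace V₁] [ProperSpace V₂] [BorelSpace V₁] [BorelSpace V₂]
  {E : Type} [Group E] [TopologicalSpace E] [IsTopologicalGroup E] [LocallyCompactSpace E]
  [SecondCountableTopology E] [T2Space E] [MeasurableSpace E] [BorelSpace E] {ι : S →* E}
  {Γ : Subgroup E} [DiscreteTopology Γ] [Countable Γ] [MeasurableSpace (E ⧸ Γ)]
  [BorelSpace (E ⧸ Γ)] {ν : Measure (E ⧸ Γ)} [IsProbabilityMeasure ν]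
  (hν : ∀ g : E, ν.map (fun x => g • x) = ν)
  (hΓ : ∀ g : Γ, g ≠ 1 → Set.Infinite {y : Γ | ∃ h, y = h * g * h⁻¹})
  {ℋ κ κ' : Type} [Fintype κ] [Fintype κ'] [NormedAddCommGroup ℋ] [InnerProductSpace ℂ ℋ]
  [CompleteSpace ℋ] {V R₁ R₂ : Γ →* (ℋ →L[ℂ] ℋ)} {ξ : κ → ℋ} {ξ' : κ' → ℋ}
  (hs : Sys V R₁ R₂) (hT : Tri V R₁ R₂ ξ) (hh : Hon R₁ R₂ ξ) (hT' : Tri R₁ V R₂ ξ')

include hΓ hh hT' in
/-- `MsF` of a system -/
theorem ms_sys : MsF (H34.Ind.lam (cdat ν hν) R₁)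
    (Xset (cdat ν hν) ℋ ∪ Set.range (H34.Ind.lam (cdat ν hν) R₂)) (nrm hν ξ)
    (st (mT (cdat ν hν) hT)) :=
  H458.HalfT.msF_E (cdat ν hν) hT hh hT' hΓ (RC.nrm_ne hT.ne)

/-- `UC` of a system -/
theorem uc_sys (i : κ) : UC (H34.Ind.pi (cdat ν hν) (V := V) hT.adjV)
    (Xset (cdat ν hν) ℋ ∪ Set.range (H34.Ind.lam (cdat ν hν) R₂)) (nrm hν ξ i)
    (st (mT (cdat ν hν) hT)) :=
  H458.HalfT.uc_T hν hT (H458.HalfT.norm_nrm_le ξ i)

include hΓ hs hh hT' in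
/-- polynomial sizes of a system for every element with the gap -/
theorem sz_sys {b : E} (hb : LeviGap b) {D : ℕ → Set Γ} (hD : Flt D) {σ : Γ → ℝ}
    (hσ : ∀ J γ, γ ∈ D J → σ γ ≤ Real.exp J) (i : κ) :
    SZ3 b (H34.Ind.pi (cdat ν hν) (V := V) hT.adjV) (nrm hν ξ i) (st (mT (cdat ν hν) hT)) σ := by
  obtain ⟨B, hB, ⟨bs⟩⟩ := hs.basis
  exact sz3_tri hν hT.adjV bs hT hs.irr (MskL.of_msF (ms_sys hν hΓ hT hh hT')) hD hσ hb i

variable {q : Γ → S}

include hΓ hs hh hT' in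
/-- **The seven fields of the base record of a system, any letters.** -/
theorem cloF_sys (hG : Geo L) (h : Adm L ι) (f1 : IsFiniteMeasureOnCompacts L.μ₁)
    (f2 : IsFiniteMeasureOnCompacts L.μ₂) (hsp : SprL L) (g1 : LeviGap (ι L.b1))
    (g2 : LeviGap (ι L.b2)) (hq : ∀ γ, ι (q γ) = γ) :
    CLoF L ι (H34.Ind.pi (cdat ν hν) (V := V) hT.adjV) (H34.Ind.lam (cdat ν hν) R₁)
      (Xset (cdat ν hν) ℋ ∪ Set.range (H34.Ind.lam (cdat ν hν) R₂))
      (nrm hν ξ) (st (mT (cdat ν hν) hT)) q := by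
  have hph := ph_lift h hq
  obtain ⟨D, hD, hσ⟩ := exists_flt hph hG.nm_pos hG.z_nm hG.nm_mul
  have hm := ms_sys hν hΓ hT hh hT'
  have ob : ∀ {W : Type} [NormedAddCommGroup W] [ProperSpace W] [MeasurableSpace W]
      [BorelSpace W] {μ : Measure W} [IsFiniteMeasureOnCompacts μ] {b : S} {n : W → S},
      Continuous (fun s => ι (n s)) → (∃ ρ : ℝ, 0 < ρ ∧ ρ < 1 ∧ H368.SN.Spr μ b n ρ) →
      ∃ ρ : ℝ, 0 < ρ ∧ ρ < 1 ∧ SNT.ORBGF μ (ι b) (fun s => ι (n s)) ρ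
        (H34.Ind.pi (cdat ν hν) (V := V) hT.adjV) (H34.Ind.lam (cdat ν hν) R₁)
        (Xset (cdat ν hν) ℋ ∪ Set.range (H34.Ind.lam (cdat ν hν) R₂)) (nrm hν ξ) := by
    intro W _ _ _ _ μ _ b n hc hsp'
    obtain ⟨ρ, h0, h1, h2⟩ := sprE hG h hsp'
    exact ⟨ρ, h0, h1, orb_sys hν hs hc h2 hT⟩
  exact
    { ms := hm
      uc := uc_sys hν hT
      orb1 := ob (h.cι.comp hG.u1c) hsp.s1
      orb2 := ob (h.cι.comp hG.u2c) hsp.s2
      orb2' := ob (h.cι.comp hG.u1c) hsp.s2'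
      size1 := fun i => sz3_exp_exp (MskL.of_msF hm) (sz_sys hν hΓ hs hT hh hT' g1 hD hσ i)
      size2 := fun i => sz3_exp_exp (MskL.of_msF hm) (sz_sys hν hΓ hs hT hh hT' g2 hD hσ i) }

include hΓ hs hh hT' in
/-- **The base record of the first leg of a system.** -/
theorem pbF_sys (hG : Geo L) (h : Adm L ι)
    (f1 : IsFiniteMeasureOnCompacts L.μ₁) (f2 : IsFiniteMeasureOnCompacts L.μ₂) (hsp : SprL L)
    {𝒰 : Ultrafilter ℕ} (h𝒰 : (𝒰 : Filter ℕ) ≤ atTop) (g1 : LeviGap (ι L.b1))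
    (g2 : LeviGap (ι L.b2)) (hq : ∀ γ, ι (q γ) = γ) :
    PBF L 𝒰 ι (H34.Ind.pi (cdat ν hν) (V := V) hT.adjV)
      (H34.Ind.lam (cdat ν hν) R₁)
      (Xset (cdat ν hν) ℋ ∪ Set.range (H34.Ind.lam (cdat ν hν) R₂))
      (nrm hν ξ) (st (mT (cdat ν hν) hT)) q := by
  haveI := ncE hG h
  have hph := ph_lift h hq
  have hfin := fin_lift hG h hq
  have ho := cloF_sys hν hΓ hs hT hh hT' hG h f1 f2 hsp g1 g2 hq
  exact
    { adm := h
      h𝒰 := h𝒰
      pic := picF_sys hν hs hT.adjV hT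
      ms := ho.ms
      uc := ho.uc
      ph := hph
      fin := hfin
      ud := ud_of_fin hG hph hfin
      orb1 := ho.orb1
      orb2 := ho.orb2
      orb2' := ho.orb2'
      size1 := ho.size1
      size2 := ho.size2
      prox1 := prox1_lift hG h hν hq
      prox2 := prox2_lift hG h hν hq
      nis1 := nis_lift1 hG h hν hq
      nis2 := nis_lift2 hG h hν hq }

include hΓ hs hh hT' in
/-- **The first leg of a system, any letters.** -/
theorem legF_sys (hG : Geo L) {T : Gau S P M}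
    (hT0 : GauOk L T) (hO : OvlStmt L T) (h : Adm L ι)
    (f1 : IsFiniteMeasureOnCompacts L.μ₁) (f2 : IsFiniteMeasureOnCompacts L.μ₂) (hsp : SprL L)
    {𝒰 : Ultrafilter ℕ} (h𝒰 : (𝒰 : Filter ℕ) ≤ atTop) (g1 : LeviGap (ι L.b1))
    (g2 : LeviGap (ι L.b2)) (hM : MassStmt L T ι) (hq : ∀ γ, ι (q γ) = γ) :
    HasLegF L 𝒰 ι (H34.Ind.pi (cdat ν hν) (V := V) hT.adjV)
      (H34.Ind.lam (cdat ν hν) R₁)
      (Xset (cdat ν hν) ℋ ∪ Set.range (H34.Ind.lam (cdat ν hν) R₂))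
      (nrm hν ξ) (st (mT (cdat ν hν) hT)) q := by
  haveI := ncE hG h
  have hb := pbF_sys hν hΓ hs hT hh hT' hG h f1 f2 hsp h𝒰 g1 g2 hq
  obtain ⟨B, hB, ⟨bs⟩⟩ := hs.basis
  have hW := hM hν hT hh hT' hΓ (picF_sys hν hs hT.adjV hT) (SNT.tv_tri hν hT.adjV bs hT) q hq
    hb.ph hb.fin
  obtain ⟨c, i, hv⟩ := exists_v0 hν hT
  have w1 := wal_T hν hT hΓ hT' hh hT0 hb.ph (coc_b1 hG h) hW.1.n1 hW.1.n2 hW.1.ty c i
  have w2 := wal_T hν hT hΓ hT' hh hT0 hb.ph (coc_b2 hG h) hW.2.n1 hW.2.n2 hW.2.ty c i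
  obtain ⟨U11, p11, U12, p12, U21, p21, U22, p22, H⟩ := legQ_of (q := q) hG hT0 hO h h𝒰 hb.pic
    hb.ms hb.ph hb.fin hb.nis1 hb.nis2 (H21.leg_T (cdat ν hν) hT hh hΓ hT')
    (H21.slow_T (cdat ν hν) hT hΓ hT' hh (H43.ccont_cdat ν hν))
    (H21.loc2_T (cdat ν hν) hT hΓ hT' hh) hv w1 w2
  exact ⟨U11, p11, U12, p12, U21, p21, U22, p22,
    { base := hb
      u11 := H.u11
      u12 := H.u12
      u21 := H.u21
      u22 := H.u22
      s1 := H.s1
      s2 := H.s2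
      i11 := H.i11
      i12 := H.i12 }⟩

end leg

/-! ### The statement for all systems -/

/-- **The first leg of every system** over a source group `E`; the second leg is the first leg of the
exchanged system. -/
def HalfO {S P M V₁ V₂ : Type} [Group S] [MeasurableSpace V₁] [MeasurableSpace V₂]
    [TopologicalSpace S] [MulAction S P] [TopologicalSpace P] [CompactSpace P]
    [ContinuousConstSMul S P] [MulAction S M] [TopologicalSpace M] [CompactSpace M]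
    [ContinuousConstSMul S M] [NormedAddCommGroup V₁] [NormedAddCommGroup V₂]
    (L : Lt S P M V₁ V₂) {E : Type} [Group E] [TopologicalSpace E] [IsTopologicalGroup E]
    [LocallyCompactSpace E] [SecondCountableTopology E] [T2Space E] (ι : S →* E) : Prop :=
  ∀ [MeasurableSpace E] [BorelSpace E] {Γ : Subgroup E} [DiscreteTopology Γ] [Countable Γ]
    [MeasurableSpace (E ⧸ Γ)] [BorelSpace (E ⧸ Γ)] {ν : Measure (E ⧸ Γ)}
    [IsProbabilityMeasure ν] (hν : ∀ g : E, ν.map (fun x => g • x) = ν)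
    (_ : ∀ g : Γ, g ≠ 1 → Set.Infinite {y : Γ | ∃ h, y = h * g * h⁻¹})
    {ℋ : Type} [NormedAddCommGroup ℋ] [InnerProductSpace ℂ ℋ] [CompleteSpace ℋ]
    {V R₁ R₂ : Γ →* (ℋ →L[ℂ] ℋ)} (hV : ∀ v, adjoint (V v) = V v⁻¹) (_ : Sys V R₁ R₂),
    ∃ (κ : Type) (_ : Fintype κ) (Ω : κ → Lp ℋ 2 (cdat ν hν).μ)
      (m : Set Γ → (Lp ℋ 2 (cdat ν hν).μ →L[ℂ] Lp ℋ 2 (cdat ν hν).μ)) (q : Γ → S),
      HasLegF L (hyperfilter ℕ) ι (H34.Ind.pi (cdat ν hν) (V := V) hV)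
        (H34.Ind.lam (cdat ν hν) R₁)
        (Xset (cdat ν hν) ℋ ∪ Set.range (H34.Ind.lam (cdat ν hν) R₂)) Ω m q ∧
      (∀ γ, q γ ∈ L.Z → γ = 1)

/-- **`HalfO`** from the inputs of `exHalfT_of`, word for word. -/
theorem halfO_of {S P M V₁ V₂ : Type} [Group S] [MeasurableSpace V₁] [MeasurableSpace V₂]
    {L : Lt S P M V₁ V₂} [TopologicalSpace S] [MulAction S P] [TopologicalSpace P]
    [CompactSpace P] [ContinuousConstSMul S P] [MulAction S M] [TopologicalSpace M]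
    [CompactSpace M] [ContinuousConstSMul S M] [NormedAddCommGroup V₁] [NormedAddCommGroup V₂]
    [ProperSpace V₁] [ProperSpace V₂] [BorelSpace V₁] [BorelSpace V₂]
    {E : Type} [Group E] [TopologicalSpace E] [IsTopologicalGroup E] [LocallyCompactSpace E]
    [SecondCountableTopology E] [T2Space E] {ι : S →* E} (hG : Geo L) {T : Gau S P M}
    (hT : GauOk L T) (hO : OvlStmt L T) (h : Adm L ι)
    (f1 : IsFiniteMeasureOnCompacts L.μ₁) (f2 : IsFiniteMeasureOnCompacts L.μ₂) (hsp : SprL L)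
    (g1 : LeviGap L.b1) (g2 : LeviGap L.b2) (hM : MassStmt L T ι) : HalfO L ι := by
  intro _ _ Γ _ _ _ _ ν _ hν hicc ℋ _ _ _ V R₁ R₂ hV hs
  haveI := hG.tg
  have hq : ∀ γ : Γ, ι (Function.surjInv h.sur (γ : E)) = γ := fun γ =>
    Function.surjInv_eq h.sur _
  obtain ⟨κ, _, ξ, hT₁, hh⟩ := hs.t₁
  obtain ⟨κ', _, ξ', hT'⟩ := hs.g₁
  exact ⟨κ, inferInstance, nrm hν ξ, st (mT (cdat ν hν) hT₁),
    fun γ => Function.surjInv h.sur (γ : E),
    legF_sys hν hicc hs hT₁ hh hT' hG hT hO h f1 f2 hsp Nat.hyperfilter_le_atTop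
      (H684.Psp.leviGap_proper ι h.cι h.sur g1) (H684.Psp.leviGap_proper ι h.cι h.sur g2) hM hq,
    inj_lift hG h hq hicc⟩

end Vale.Agent.P092.H958.OV
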