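import Vale.Agent.P092.H678.O.Sys
import Vale.Agent.P092.H958.OrbT
import Vale.Agent.P092.H962.C.PicT
import Vale.Agent.P092.SNT.Cl

/-!
P092, [OV] (helper958): the rows of an irreducible system `Sys V R₁ R₂` on `L²(E/Γ; ℋ)`, any source
group `E`: the picture of one leg and of both legs, Bessel families, orbits.
-/

set_option linter.all false

open scoped InnerProductSpace ENNReal
open Filter Topology ContinuousLinearMap MeasureTheory TopologicalSpace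

namespace Vale.Agent.P092.H958.OV

open Vale.Agent.P092.RC (Cm Moore TRNF PicF Pic2F picF_of wp_tri nrm_ne)
open Vale.Agent.P092.SR (Tri)
open Vale.Agent.P092.H678.OV
open Vale.Agent.P092.H85 (cdat)
open Vale.Agent.P092.H34 (Ind.pi Ind.lam)
open Vale.Agent.P092.H34.Ind (Xset adjoint_pi pi_ind pi_mul_inv)
open Vale.Agent.P092.H34.AmpE (nrm)
open Vale.Agent.P092.H790 (adjoint_ind)
open Vale.Agent.P092.H421.Hs (Pf pf_of_hasSum tri_frq₂ Frq trq)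
open Vale.Agent.P092.H368.SN (Spr)

/-! ### Bessel families -/

section bes

variable {Γ ℋ κ : Type} [Group Γ] [Fintype κ] [NormedAddCommGroup ℋ] [InnerProductSpace ℂ ℋ]
  [CompleteSpace ℋ] {V R₁ R₂ : Γ →* (ℋ →L[ℂ] ℋ)} {ζ : κ → ℋ}

/-- the orbit of `ω` is a Bessel family -/
def Bs (V R₂ : Γ →* (ℋ →L[ℂ] ℋ)) (ω : ℋ) : Prop :=
  ∃ C : ℝ, 0 ≤ C ∧ ∀ y : ℋ,
    ∑' p : Γ × Γ, ‖⟪R₂ p.2 (V p.1 ω), y⟫_ℂ‖ₑ ^ 2 ≤ ENNReal.ofReal C * ‖y‖ₑ ^ 2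

theorem bs_base (h : Tri R₁ V R₂ ζ) (j : κ) (a b : Γ) : Bs V R₂ (V a (R₂ b (ζ j))) := by
  refine ⟨1, zero_le_one, fun y => ?_⟩
  have hp := pf_of_hasSum h.frame y
  have e1 : ∀ p : Γ × Γ, ‖⟪R₂ p.2 (V p.1 (V a (R₂ b (ζ j)))), y⟫_ℂ‖ₑ ^ 2 =
      (fun p : Γ × Γ => ‖⟪V p.1 (R₂ p.2 (ζ j)), y⟫_ℂ‖ₑ ^ 2)
        ((Equiv.prodCongr (Equiv.mulRight a) (Equiv.mulRight b)) p) := by
    intro p
    change _ = ‖⟪V (p.1 * a) (R₂ (p.2 * b) (ζ j)), y⟫_ℂ‖ₑ ^ 2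
    rw [map_mul, map_mul]
    have h1 : R₂ p.2 (V p.1 (V a (R₂ b (ζ j)))) = V p.1 (V a (R₂ p.2 (R₂ b (ζ j)))) := by
      have c1 : ∀ g h' : Γ, ∀ v : ℋ, R₂ g (V h' v) = V h' (R₂ g v) := fun g h' v =>
        (congrArg (fun S : ℋ →L[ℂ] ℋ => S v) (h.comm₁₂ h' g)).symm
      rw [c1, c1]
    rw [h1]
    rfl
  have hp' : ∑' (i : κ) (p : Γ × Γ), ‖⟪V p.1 (R₂ p.2 (ζ i)), y⟫_ℂ‖ₑ ^ 2 = ‖y‖ₑ ^ 2 := by
    rw [← hp]
    exact (ENNReal.tsum_prod' (f := fun q : κ × Γ × Γ =>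
      ‖⟪V q.2.1 (R₂ q.2.2 (ζ q.1)), y⟫_ℂ‖ₑ ^ 2)).symm
  simp_rw [e1]
  rw [(Equiv.prodCongr (Equiv.mulRight a) (Equiv.mulRight b)).tsum_eq
    (fun p : Γ × Γ => ‖⟪V p.1 (R₂ p.2 (ζ j)), y⟫_ℂ‖ₑ ^ 2), ENNReal.ofReal_one, one_mul, ← hp']
  exact ENNReal.le_tsum (f := fun i : κ => ∑' p : Γ × Γ,
    ‖⟪V p.1 (R₂ p.2 (ζ i)), y⟫_ℂ‖ₑ ^ 2) j

theorem bs_add {u w : ℋ} (hu : Bs V R₂ u) (hw : Bs V R₂ w) : Bs V R₂ (u + w) := by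
  obtain ⟨C, hC, h1⟩ := hu
  obtain ⟨D, hD, h2⟩ := hw
  refine ⟨2 * (C + D), by positivity, fun y => ?_⟩
  have e1 : ∀ p : Γ × Γ, ‖⟪R₂ p.2 (V p.1 (u + w)), y⟫_ℂ‖ₑ ^ 2 ≤
      2 * (‖⟪R₂ p.2 (V p.1 u), y⟫_ℂ‖ₑ ^ 2 + ‖⟪R₂ p.2 (V p.1 w), y⟫_ℂ‖ₑ ^ 2) := by
    intro p
    rw [map_add, map_add, inner_add_left, esq', esq', esq', ← ENNReal.ofReal_add (by positivity)
      (by positivity), show (2 : ℝ≥0∞) = ENNReal.ofReal 2 by simp,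
      ← ENNReal.ofReal_mul (by norm_num)]
    refine ENNReal.ofReal_le_ofReal ?_
    have h3 := norm_add_le ⟪R₂ p.2 (V p.1 u), y⟫_ℂ ⟪R₂ p.2 (V p.1 w), y⟫_ℂ
    nlinarith [sq_nonneg (‖⟪R₂ p.2 (V p.1 u), y⟫_ℂ‖ - ‖⟪R₂ p.2 (V p.1 w), y⟫_ℂ‖),
      norm_nonneg (⟪R₂ p.2 (V p.1 u), y⟫_ℂ + ⟪R₂ p.2 (V p.1 w), y⟫_ℂ),
      norm_nonneg ⟪R₂ p.2 (V p.1 u), y⟫_ℂ, norm_nonneg ⟪R₂ p.2 (V p.1 w), y⟫_ℂ]
  refine (ENNReal.tsum_le_tsum e1).trans ?_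
  rw [ENNReal.tsum_mul_left, ENNReal.tsum_add, ENNReal.ofReal_mul (by norm_num),
    ENNReal.ofReal_add hC hD, mul_assoc, add_mul,
    show ENNReal.ofReal 2 = (2 : ℝ≥0∞) by simp]
  exact mul_le_mul_right (add_le_add (h1 y) (h2 y)) 2

theorem bs_smul (c : ℂ) {u : ℋ} (hu : Bs V R₂ u) : Bs V R₂ (c • u) := by
  obtain ⟨C, hC, h1⟩ := hu
  refine ⟨‖c‖ ^ 2 * C, by positivity, fun y => ?_⟩
  have e1 : ∀ p : Γ × Γ, ‖⟪R₂ p.2 (V p.1 (c • u)), y⟫_ℂ‖ₑ ^ 2 =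
      ENNReal.ofReal (‖c‖ ^ 2) * ‖⟪R₂ p.2 (V p.1 u), y⟫_ℂ‖ₑ ^ 2 := by
    intro p
    rw [map_smul, map_smul, inner_smul_left, esq', esq', ← ENNReal.ofReal_mul (by positivity),
      norm_mul, mul_pow, RCLike.norm_conj]
  simp_rw [e1]
  rw [ENNReal.tsum_mul_left, ENNReal.ofReal_mul (by positivity), mul_assoc]
  exact mul_le_mul_right (h1 y) _

theorem bs_zero : Bs V R₂ (0 : ℋ) := by
  refine ⟨0, le_rfl, fun y => ?_⟩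
  simp

/-- **Orbits are approximated by Bessel families.** -/
theorem bes_gtri (h : Tri R₁ V R₂ ζ) (hV : ∀ v, adjoint (V v) = V v⁻¹) (ω : ℋ) {ε : ℝ}
    (hε : 0 < ε) : ∃ (C : ℝ) (a : Γ → ℋ), (∀ v, ‖V v ω - a v‖ ≤ ε) ∧
      ∀ y : ℋ, ∑' p : Γ × Γ, ‖⟪R₂ p.2 (a p.1), y⟫_ℂ‖ₑ ^ 2 ≤ ENNReal.ofReal C * ‖y‖ₑ ^ 2 := by
  have hPf := pf_of_hasSum h.frame
  have hd : (Submodule.span ℂ (Set.range fun p : κ × Γ × Γ =>
      V p.2.1 (R₂ p.2.2 (ζ p.1)))).topologicalClosure = ⊤ := by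
    rw [Submodule.topologicalClosure_eq_top_iff, Submodule.eq_bot_iff]
    intro η hη
    exact hPf.eq_zero fun p => (Submodule.mem_orthogonal _ _).1 hη _
      (Submodule.subset_span ⟨p, rfl⟩)
  have h1 : ω ∈ closure ((Submodule.span ℂ (Set.range fun p : κ × Γ × Γ =>
      V p.2.1 (R₂ p.2.2 (ζ p.1))) : Submodule ℂ ℋ) : Set ℋ) := by
    rw [← Submodule.topologicalClosure_coe, hd]
    trivial
  obtain ⟨ω', hω', hd'⟩ := Metric.mem_closure_iff.1 h1 ε hε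
  have h2 : Bs V R₂ ω' := by
    have h3 : ω' ∈ Submodule.span ℂ (Set.range fun p : κ × Γ × Γ =>
      V p.2.1 (R₂ p.2.2 (ζ p.1))) := hω'
    clear hω' hd'
    induction h3 using Submodule.span_induction with
    | mem u hu =>
      obtain ⟨p, rfl⟩ := hu
      exact bs_base h _ _ _
    | zero => exact bs_zero
    | add u w _ _ hu hw => exact bs_add hu hw
    | smul c u _ hu => exact bs_smul c hu
  obtain ⟨C, -, hC⟩ := h2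
  refine ⟨C, fun v => V v ω', fun v => ?_, hC⟩
  rw [← map_sub, H421.Hs.norm_U hV, ← dist_eq_norm]
  exact hd'.le

end bes

/-! ### The picture -/

section pic

variable {E : Type} [Group E] [TopologicalSpace E] [IsTopologicalGroup E] [LocallyCompactSpace E]
  [SecondCountableTopology E] [T2Space E] [MeasurableSpace E] [BorelSpace E]
  {Γ : Subgroup E} [DiscreteTopology Γ] [Countable Γ] [MeasurableSpace (E ⧸ Γ)]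
  [BorelSpace (E ⧸ Γ)] {ν : Measure (E ⧸ Γ)} [IsProbabilityMeasure ν]
  (hν : ∀ g : E, ν.map (fun x => g • x) = ν)
  {ℋ κ : Type} [Fintype κ] [NormedAddCommGroup ℋ] [InnerProductSpace ℂ ℋ] [CompleteSpace ℋ]
  {V R₁ R₂ : Γ →* (ℋ →L[ℂ] ℋ)} {ξ : κ → ℋ}

theorem comp_zero' : (0 : ℋ →L[ℂ] ℋ).compLpL 2 (cdat ν hν).μ = 0 := by
  refine ContinuousLinearMap.ext fun ξ => Lp.ext ?_
  filter_upwards [(0 : ℋ →L[ℂ] ℋ).coeFn_compLpL (p := 2) (μ := (cdat ν hν).μ) ξ,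
    Lp.coeFn_zero ℋ 2 (cdat ν hν).μ] with x h1 h2
  rw [h1]
  exact h2.symm

/-- operators of finite trace in the first target commuting with everything vanish -/
theorem zero_sys (h : Sys V R₁ R₂) (hV : ∀ v, adjoint (V v) = V v⁻¹) (hT : Tri V R₁ R₂ ξ)
    {T : Lp ℋ 2 (cdat ν hν).μ →L[ℂ] Lp ℋ 2 (cdat ν hν).μ}
    (hX : Cm (Xset (cdat ν hν) ℋ ∪ Set.range (H34.Ind.lam (cdat ν hν) R₂)) T)
    (hf : TRNF (H34.Ind.lam (cdat ν hν) R₁) (nrm hν ξ) T < ∞)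
    (hc : ∀ g : E, T * H34.Ind.pi (cdat ν hν) hV g = H34.Ind.pi (cdat ν hν) hV g * T) :
    T = 0 := by
  obtain ⟨B, hB, ⟨b⟩⟩ := h.basis
  obtain ⟨a, rfl, ha⟩ := H421.Hs.const_of_comm hν b hV
    (fun A hA => hX _ (Or.inl ⟨A, hA, rfl⟩)) hc
  have hf' := hf
  unfold nrm at hf'
  rw [H421.HsT.trnF_comp] at hf'
  have hc1 := pow_ne_zero 2 (enorm_ne_zero.2 (nrm_ne hT.ne))
  have hf1 : ∑' q : κ × Γ, ‖a (R₁ q.2 (ξ q.1))‖ₑ ^ 2 < ∞ := by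
    rcases ENNReal.mul_lt_top_iff.1 hf' with h | h | h
    · exact h.2
    · exact absurd h hc1
    · rw [h]; exact ENNReal.zero_lt_top
  have h1 : a = 0 := h.hs₂ _ _ (tri_frq₂ hT) a ha
    (fun g => H421.Hs.comm_of_comp (hX _ (Or.inr ⟨g, rfl⟩))) hf1
  rw [h1, comp_zero']

/-- **The picture of one leg of a system.** -/
theorem picF_sys (h : Sys V R₁ R₂) (hV : ∀ v, adjoint (V v) = V v⁻¹) (hT : Tri V R₁ R₂ ξ) :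
    PicF (H34.Ind.pi (cdat ν hν) hV) (H34.Ind.lam (cdat ν hν) R₁)
      (Xset (cdat ν hν) ℋ ∪ Set.range (H34.Ind.lam (cdat ν hν) R₂)) (nrm hν ξ) := by
  obtain ⟨B, hB, ⟨b⟩⟩ := h.basis
  obtain ⟨κ', _, ζ, h'⟩ := h.g₁
  refine picF_of hν hV b hT h' h.irr fun S hS T hT' hf hc => ?_
  exact zero_sys hν h hV hT hT' hf (H421.HsT.comm_of_mooreF (wp_tri hν hV hT)
    (fun T hT'' g => H34.AmpE.tr_conj_tri hν hV b hT hT'' g)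
    (adjoint_pi (cdat ν hν) hV) (H34.AmpE.cont_pi hν hV)
    (fun T hT'' h0 => H34.AmpE.tr_zero_tri hν b hT hT'' h0) hS hT' hf hc)

/-- the family for the exchanged targets -/
theorem tri_swap (h : Tri V R₁ R₂ ξ) : Tri V R₂ R₁ ξ where
  adjV := h.adjV
  adj₁ := h.adj₂
  adj₂ := h.adj₁
  comm₁ := h.comm₂
  comm₂ := h.comm₁
  comm₁₂ := fun g k => (h.comm₁₂ k g).symm
  ne := h.ne
  frame := by
    intro η
    have h1 := ((Equiv.refl κ).prodCongr (Equiv.prodComm Γ Γ)).hasSum_iff.2 (h.frame η)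
    have e1 : (fun p : κ × Γ × Γ => ‖⟪R₂ p.2.1 (R₁ p.2.2 (ξ p.1)), η⟫_ℂ‖ ^ 2) =
        (fun p : κ × Γ × Γ => ‖⟪R₁ p.2.1 (R₂ p.2.2 (ξ p.1)), η⟫_ℂ‖ ^ 2) ∘
          ((Equiv.refl κ).prodCongr (Equiv.prodComm Γ Γ)) := by
      funext p
      change _ = ‖⟪R₁ p.2.2 (R₂ p.2.1 (ξ p.1)), η⟫_ℂ‖ ^ 2
      rw [H421.Hs.cm_ap (h.comm₁₂ p.2.2 p.2.1)]
    rw [e1]
    exact h1

/-- **The picture of both legs of a system.** -/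
theorem pic2F_sys (h : Sys V R₁ R₂) (hV : ∀ v, adjoint (V v) = V v⁻¹) (hT : Tri V R₁ R₂ ξ) :
    Pic2F (H34.Ind.pi (cdat ν hν) hV) (H34.Ind.lam (cdat ν hν) R₁)
      (H34.Ind.lam (cdat ν hν) R₂) (Xset (cdat ν hν) ℋ) (nrm hν ξ) := by
  have xadj : ∀ x ∈ Xset (cdat ν hν) ℋ, adjoint x ∈ Xset (cdat ν hν) ℋ := by
    rintro _ ⟨S, hS, rfl⟩
    exact ⟨S, hS, adjoint_ind hS⟩
  have xp : ∀ x ∈ Xset (cdat ν hν) ℋ, ∀ g, H34.Ind.pi (cdat ν hν) hV g * x *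
      H34.Ind.pi (cdat ν hν) hV g⁻¹ ∈ Xset (cdat ν hν) ℋ := by
    rintro _ ⟨S, hS, rfl⟩ g
    refine ⟨_, ((cdat ν hν).mp g⁻¹).measurable hS, ?_⟩
    rw [pi_ind (cdat ν hν) hV g hS, mul_assoc, pi_mul_inv, mul_one]
  exact ⟨picF_sys hν h hV hT, picF_sys hν h.swap hV (tri_swap hT), xadj, xp⟩

/-- **The orbit row of a system.** -/
theorem orb_sys (h : Sys V R₁ R₂) {P : Type} [NormedAddCommGroup P] [ProperSpace P]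
    [MeasurableSpace P] [BorelSpace P] {μ : Measure P} [IsFiniteMeasureOnCompacts μ] {b₀ : E}
    {n : P → E} {ρ : ℝ} (hn : Continuous n) (hspr : Spr μ b₀ n ρ) (hT : Tri V R₁ R₂ ξ) :
    ORBGF μ b₀ n ρ (H34.Ind.pi (cdat ν hν) hT.adjV) (H34.Ind.lam (cdat ν hν) R₁)
      (Xset (cdat ν hν) ℋ ∪ Set.range (H34.Ind.lam (cdat ν hν) R₂)) (nrm hν ξ) := by
  obtain ⟨B, hB, ⟨b⟩⟩ := h.basis
  obtain ⟨κ', _, ζ, h'⟩ := h.g₁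
  exact orb_tri hν hT.adjV b hn hspr hT fun ω ε hε => bes_gtri h' hT.adjV ω hε

end pic

end Vale.Agent.P092.H958.OV
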